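import Vale.Agent.P028.Overlap

/-!
# Full measure from the second moment bound
-/

open MeasureTheory Set Finset

namespace Vale.Agent.P028

/-- Points of the unit interval whose `r`-ball lies in `U`. -/
def core (U : Set ℝ) (r : ℝ) : Set ℝ := {x ∈ Set.Ico (0 : ℝ) 1 | Metric.ball x r ⊆ U}

lemma volume_cell (γ : ℝ) (q : ℕ) (a : ℤ) :
    volume (Set.Ico ((a + γ - 1/2) / q) ((a + γ + 1/2) / q)) = ENNReal.ofReal (1 / q) := by
  rw [Real.volume_Ico]
  congr 1
  ring

/-- The intervals of a large `q` put mass proportional to `δ` into an open set. -/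
lemma cnt_lower (γ δ : ℝ) (q : ℕ) (hq : 0 < q) (hδ : 0 ≤ δ) (hδ1 : δ ≤ 1/2) (U : Set ℝ)
    (_hU : MeasurableSet U) (r : ℝ) (hqr : 2 / (q : ℝ) ≤ r) :
    2 * δ * volume.real (core U r) ≤ ∫ x in U, cnt γ δ q x := by
  classical
  have hqR : (0 : ℝ) < q := by exact_mod_cast hq
  set G := (idx γ q).filter (fun a => ivl γ δ q a ⊆ U) with hG
  have hcover : core U r ⊆ ⋃ a ∈ G, Set.Ico ((a + γ - 1/2) / q) ((a + γ + 1/2) / q) := by
    intro x hx
    obtain ⟨⟨hx0, hx1⟩, hball⟩ := hx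
    set a : ℤ := ⌊(q : ℝ) * x - γ + 1/2⌋ with ha
    have f1 := Int.floor_le ((q : ℝ) * x - γ + 1/2)
    have f2 := Int.lt_floor_add_one ((q : ℝ) * x - γ + 1/2)
    rw [← ha] at f1 f2
    have h0 : (0 : ℝ) ≤ (q : ℝ) * x := mul_nonneg hqR.le hx0
    have h1 : (q : ℝ) * x ≤ q := by nlinarith
    simp only [Set.mem_iUnion]
    refine ⟨a, ?_, ?_⟩
    · rw [hG, Finset.mem_filter, idx, Finset.mem_Icc]
      refine ⟨⟨?_, ?_⟩, ?_⟩
      · have g1 := Int.floor_le (-γ)
        have : ((⌊-γ⌋ - 1 : ℤ) : ℝ) < (a : ℝ) + 1 := by push_cast; linarith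
        have : ⌊-γ⌋ - 1 < a + 1 := by exact_mod_cast this
        omega
      · have g1 := Int.lt_floor_add_one ((q : ℝ) - γ)
        have : (a : ℝ) < ((⌊(q : ℝ) - γ⌋ + 3 : ℤ) : ℝ) := by push_cast; linarith
        have : a < ⌊(q : ℝ) - γ⌋ + 3 := by exact_mod_cast this
        omega
      · intro y hy
        apply hball
        simp only [ivl, Set.mem_Ioo, div_lt_iff₀ hqR, lt_div_iff₀ hqR] at hy
        rw [Metric.mem_ball, Real.dist_eq]
        refine lt_of_lt_of_le ?_ hqr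
        rw [abs_lt, lt_div_iff₀ hqR, ← neg_div, div_lt_iff₀ hqR]
        constructor <;> linarith [hy.1, hy.2, mul_comm x (q : ℝ), sub_mul y x (q : ℝ)]
    · constructor
      · rw [div_le_iff₀ hqR]; linarith
      · rw [lt_div_iff₀ hqR]; linarith
  have hmeas : volume.real (core U r) ≤ (G.card : ℝ) * (1 / q) := by
    have h2 : volume (core U r) ≤ (G.card : ENNReal) * ENNReal.ofReal (1 / q) := by
      refine (measure_mono hcover).trans ((measure_biUnion_finset_le _ _).trans ?_)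
      simp only [volume_cell, Finset.sum_const, nsmul_eq_mul, le_refl]
    have h3 : ((G.card : ENNReal) * ENNReal.ofReal (1 / q)) ≠ ⊤ :=
      ENNReal.mul_ne_top (by simp) ENNReal.ofReal_ne_top
    have := ENNReal.toReal_mono h3 h2
    rwa [ENNReal.toReal_mul, ENNReal.toReal_natCast,
      ENNReal.toReal_ofReal (by positivity)] at this
  have hint : ∫ x in U, cnt γ δ q x = ∑ a ∈ idx γ q, volume.real (U ∩ ivl γ δ q a) := by
    unfold cnt
    rw [integral_finsetSum _ (fun a _ => (integrable_ivl γ δ q a).integrableOn)]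
    refine Finset.sum_congr rfl (fun a _ => ?_)
    rw [setIntegral_indicator (by exact measurableSet_Ioo)]
    simp
  rw [hint]
  calc 2 * δ * volume.real (core U r) ≤ 2 * δ * ((G.card : ℝ) * (1 / q)) :=
        mul_le_mul_of_nonneg_left hmeas (by linarith)
    _ = ∑ a ∈ G, 2 * δ / q := by rw [Finset.sum_const, nsmul_eq_mul]; ring
    _ = ∑ a ∈ G, volume.real (U ∩ ivl γ δ q a) := by
        refine Finset.sum_congr rfl (fun a ha => ?_)
        rw [Set.inter_eq_right.2 (Finset.mem_filter.1 ha).2, volume_ivl _ _ _ _ hδ]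
    _ ≤ _ := Finset.sum_le_sum_of_subset_of_nonneg (Finset.filter_subset _ _)
        (fun _ _ _ => measureReal_nonneg)

/-- A measurable subset of `[0,1)` missed by all intervals with large `q` is null. -/
lemma null_of_avoid (γ : ℝ) (δ : ℕ → ℝ) (hδ : ∀ q, 0 ≤ δ q) (hδ1 : ∀ q, δ q ≤ 1/2) (K : ℝ)
    (hK : ∀ N : ℕ, ∃ F : Finset ℕ, (∀ q ∈ F, N ≤ q) ∧ 0 < ∑ q ∈ F, δ q ∧
      ∑ q ∈ F, δ q * q.divisors.card ≤ K * (∑ q ∈ F, δ q) ^ 2)
    (B : Set ℝ) (hB : MeasurableSet B) (hB01 : B ⊆ Set.Ico 0 1) (n0 : ℕ)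
    (havoid : ∀ q, n0 ≤ q → ∀ x ∈ B, cnt γ (δ q) q x = 0) : volume B = 0 := by
  by_contra hne
  have hBtop : volume B ≠ ⊤ := ne_top_of_le_ne_top (by simp) (measure_mono hB01)
  set m : ℝ := volume.real B with hm
  have hm0 : 0 < m := ENNReal.toReal_pos hne hBtop
  set C : ℝ := 48 + 24 * max K 0 with hC
  have hC0 : 0 < C := by rw [hC]; linarith [le_max_right K 0]
  set η : ℝ := m ^ 2 / (4 * C) with hη
  have hη0 : 0 < η := by positivity
  obtain ⟨U, hBU, hUo, hUfin⟩ := Set.exists_isOpen_lt_add B hBtop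
    (show ENNReal.ofReal η ≠ 0 by simpa using hη0)
  have hUtop : volume U ≠ ⊤ := ne_top_of_lt hUfin
  have hdiff : volume.real (U \ B) ≤ η := by
    have h1 : volume (U \ B) ≤ ENNReal.ofReal η := by
      rw [measure_sdiff hBU hB.nullMeasurableSet hBtop]
      exact tsub_le_iff_left.2 hUfin.le
    exact ENNReal.toReal_le_of_le_ofReal hη0.le h1
  -- an inner parallel set carrying most of the mass
  have hmono : Monotone (fun n : ℕ => core U (1 / ((n : ℝ) + 1))) := by
    intro i j hij x hx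
    refine ⟨hx.1, (Metric.ball_subset_ball ?_).trans hx.2⟩
    gcongr
  have hunion : B ⊆ ⋃ n : ℕ, core U (1 / ((n : ℝ) + 1)) := by
    intro x hx
    obtain ⟨e, he, hball⟩ := Metric.isOpen_iff.1 hUo x (hBU hx)
    obtain ⟨n, hn⟩ := exists_nat_one_div_lt he
    exact Set.mem_iUnion.2 ⟨n, hB01 hx, (Metric.ball_subset_ball hn.le).trans hball⟩
  have hlt : ENNReal.ofReal (m / 2) < volume (⋃ n : ℕ, core U (1 / ((n : ℝ) + 1))) := by
    refine lt_of_lt_of_le ?_ (measure_mono hunion)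
    rw [← ENNReal.ofReal_toReal hBtop]
    exact (ENNReal.ofReal_lt_ofReal_iff (by exact hm0)).2 (by
      change m / 2 < m
      linarith)
  rw [hmono.measure_iUnion] at hlt
  obtain ⟨n, hn⟩ := lt_iSup_iff.1 hlt
  have hcore : m / 2 ≤ volume.real (core U (1 / ((n : ℝ) + 1))) :=
    (ENNReal.ofReal_le_iff_le_toReal
      (ne_top_of_le_ne_top (show volume (Set.Ico (0 : ℝ) 1) ≠ ⊤ by simp)
        (measure_mono (fun x hx => hx.1)))).1 hn.le
  obtain ⟨F, hFN, hS, hFK⟩ := hK (max n0 (2 * (n + 1)))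
  set S : ℝ := ∑ q ∈ F, δ q with hSdef
  have hFpos : ∀ q ∈ F, 0 < q := fun q hq => by have := hFN q hq; omega
  set f : ℝ → ℝ := fun x => ∑ q ∈ F, cnt γ (δ q) q x with hf
  have hfint : Integrable f volume := integrable_finsetSum _ (fun q _ => integrable_cnt _ _ _)
  have hf2 : Integrable (fun x => f x ^ 2) volume := by
    have : (fun x => f x ^ 2) =
        fun x => ∑ q ∈ F, ∑ p ∈ F, cnt γ (δ q) q x * cnt γ (δ p) p x := by
      funext x; rw [hf, sq, Finset.sum_mul_sum]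
    rw [this]
    exact integrable_finsetSum _ (fun q _ => integrable_finsetSum _
      (fun p _ => integrable_cnt_mul_cnt _ _ _ _ _))
  have hsq : ∫ x, f x ^ 2 ≤ C * S ^ 2 := by
    refine (second_moment_le γ δ hδ F hFpos).trans ?_
    rw [hC, ← hSdef, add_mul]
    have : K * S ^ 2 ≤ max K 0 * S ^ 2 :=
      mul_le_mul_of_nonneg_right (le_max_left _ _) (sq_nonneg _)
    rw [mul_assoc 24]
    linarith
  have hlow : m * S ≤ ∫ x in U, f x := by
    rw [hf, integral_finsetSum _ (fun q _ => (integrable_cnt _ _ _).integrableOn), hSdef,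
      Finset.mul_sum]
    refine Finset.sum_le_sum (fun q hq => ?_)
    have hqN := hFN q hq
    have hq0 := hFpos q hq
    have hr : 2 / (q : ℝ) ≤ 1 / ((n : ℝ) + 1) := by
      rw [div_le_div_iff₀ (by exact_mod_cast hq0) (by positivity)]
      have : 2 * (n + 1) ≤ q := le_trans (le_max_right _ _) hqN
      have : (2 : ℝ) * ((n : ℝ) + 1) ≤ q := by exact_mod_cast this
      linarith
    refine le_trans ?_ (cnt_lower γ (δ q) q hq0 (hδ q) (hδ1 q) U hUo.measurableSet _ hr)
    nlinarith [hδ q]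
  have hzero : ∫ x in B, f x = 0 := by
    apply setIntegral_eq_zero_of_forall_eq_zero
    intro x hx
    apply Finset.sum_eq_zero
    intro q hq
    exact havoid q (le_trans (le_max_left _ _) (hFN q hq)) x hx
  have hsplit : ∫ x in U, f x = ∫ x in U \ B, f x := by
    rw [setIntegral_sdiff hB hfint.integrableOn hBU, hzero, sub_zero]
  set t : ℝ := m / (2 * C * S) with ht
  have ht0 : 0 < t := by positivity
  have hUBtop : volume (U \ B) ≠ ⊤ := ne_top_of_le_ne_top hUtop (measure_mono Set.sdiff_subset)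
  have hconst : IntegrableOn (fun _ : ℝ => 1 / (2 * t)) (U \ B) volume := integrableOn_const hUBtop
  have hup : ∫ x in U \ B, f x ≤ t / 2 * (C * S ^ 2) + η * (1 / (2 * t)) := by
    calc ∫ x in U \ B, f x ≤ ∫ x in U \ B, (t / 2 * f x ^ 2 + 1 / (2 * t)) := by
          apply setIntegral_mono hfint.integrableOn
            ((hf2.const_mul _).integrableOn.add hconst)
          intro x
          simp only [Pi.add_apply]
          rw [← sub_nonneg]
          have : t / 2 * f x ^ 2 + 1 / (2 * t) - f x = (t * f x - 1) ^ 2 / (2 * t) := by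
            field_simp; ring
          rw [this]; positivity
      _ = (∫ x in U \ B, t / 2 * f x ^ 2) + ∫ x in U \ B, 1 / (2 * t) :=
          integral_add (hf2.const_mul _).integrableOn hconst
      _ ≤ _ := by
          refine add_le_add ?_ ?_
          · rw [integral_const_mul]
            refine mul_le_mul_of_nonneg_left ?_ (by positivity)
            exact (setIntegral_le_integral hf2
              (Filter.Eventually.of_forall (fun x => sq_nonneg _))).trans hsq
          · rw [setIntegral_const, smul_eq_mul]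
            exact mul_le_mul_of_nonneg_right hdiff (by positivity)
  have hfin : t / 2 * (C * S ^ 2) + η * (1 / (2 * t)) = m * S / 4 + m * S / 4 := by
    rw [ht, hη]; field_simp; ring
  have : m * S ≤ m * S / 2 := by linarith
  nlinarith [mul_pos hm0 hS]

/-- Selection of good finite families from divergence with a weight slightly above `1 / τ`. -/
lemma exists_family (δ : ℕ → ℝ) (hδ : ∀ q, 0 ≤ δ q) (ε : ℝ) (hε : 0 < ε)
    (h : ¬ Summable (fun q : ℕ => δ q / ((q.divisors.card : ℝ) * ((Nat.log 2 q.divisors.card : ℝ) + 1) ^ (1 + ε)))) (N : ℕ) :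
    ∃ F : Finset ℕ, (∀ q ∈ F, N ≤ q) ∧ 0 < ∑ q ∈ F, δ q ∧
      ∑ q ∈ F, δ q * q.divisors.card ≤ 2 * (∑ q ∈ F, δ q) ^ 2 := by
  classical
  by_contra hcon
  push Not at hcon
  apply h
  have hgeo : Summable (fun j : ℕ => 1 / ((j : ℝ) + 1) ^ (1 + ε)) := by
    refine ((summable_nat_add_iff 1).2
      (Real.summable_one_div_nat_rpow.2 (show (1 : ℝ) < 1 + ε by linarith))).congr ?_
    intro j
    simp
  set T : ℕ → ℝ := fun q => δ q / ((q.divisors.card : ℝ) * ((Nat.log 2 q.divisors.card : ℝ) + 1) ^ (1 + ε)) with hT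
  have hT0 : ∀ q, 0 ≤ T q := fun q => div_nonneg (hδ q) (by positivity)
  refine summable_of_sum_le (c := (∑ q ∈ Finset.range (N + 1), T q)
    + ∑' j : ℕ, 1 / ((j : ℝ) + 1) ^ (1 + ε)) hT0 (fun u => ?_)
  rw [← Finset.sum_filter_add_sum_filter_not u (fun q => q < N + 1)]
  refine add_le_add ?_ ?_
  · exact Finset.sum_le_sum_of_subset_of_nonneg
      (fun q hq => Finset.mem_range.2 (Finset.mem_filter.1 hq).2) (fun q _ _ => hT0 q)
  set V := u.filter (fun q => ¬ q < N + 1) with hV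
  set J : ℕ → ℕ := fun q => Nat.log 2 q.divisors.card with hJ
  calc ∑ q ∈ V, T q = ∑ j ∈ V.image J, ∑ q ∈ V with J q = j, T q :=
        (Finset.sum_fiberwise_of_maps_to (fun q hq => Finset.mem_image_of_mem J hq) T).symm
    _ ≤ ∑ j ∈ V.image J, 1 / ((j : ℝ) + 1) ^ (1 + ε) := by
        refine Finset.sum_le_sum (fun j _ => ?_)
        set W := V.filter (fun q => J q = j) with hW
        have hmem : ∀ q ∈ W, N ≤ q ∧ 2 ^ j ≤ q.divisors.card ∧ q.divisors.card ≤ 2 ^ (j + 1) := by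
          intro q hq
          obtain ⟨hqV, hqj⟩ := Finset.mem_filter.1 hq
          have hqN : ¬ q < N + 1 := (Finset.mem_filter.1 hqV).2
          have hne : q.divisors.card ≠ 0 :=
            (Finset.card_pos.2 ⟨1, Nat.one_mem_divisors.2 (by omega)⟩).ne'
          subst hqj
          exact ⟨by omega, Nat.pow_log_le_self 2 hne,
            (Nat.lt_pow_succ_log_self one_lt_two _).le⟩
        set S := ∑ q ∈ W, δ q with hS
        have hS0 : 0 ≤ S := Finset.sum_nonneg (fun q _ => hδ q)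
        have hSle : S ≤ (2 : ℝ) ^ j := by
          by_contra hgt
          push Not at hgt
          have hpos : (0 : ℝ) < (2 : ℝ) ^ j := by positivity
          have hbad := hcon W (fun q hq => (hmem q hq).1) (hpos.trans hgt)
          have hle : ∑ q ∈ W, δ q * (q.divisors.card : ℝ) ≤ S * (2 : ℝ) ^ (j + 1) := by
            rw [hS, Finset.sum_mul]
            refine Finset.sum_le_sum (fun q hq => mul_le_mul_of_nonneg_left ?_ (hδ q))
            exact_mod_cast (hmem q hq).2.2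
          rw [pow_succ] at hle
          nlinarith
        have hple : ∀ q ∈ W, T q ≤ δ q / ((2 : ℝ) ^ j * ((j : ℝ) + 1) ^ (1 + ε)) := by
          intro q hq
          have hj : Nat.log 2 q.divisors.card = j := (Finset.mem_filter.1 hq).2
          have h2 : (2 : ℝ) ^ j ≤ q.divisors.card := by exact_mod_cast (hmem q hq).2.1
          simp only [hT, hj]
          exact div_le_div_of_nonneg_left (hδ q) (by positivity)
            (mul_le_mul_of_nonneg_right h2 (by positivity))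
        calc ∑ q ∈ W, T q ≤ ∑ q ∈ W, δ q / ((2 : ℝ) ^ j * ((j : ℝ) + 1) ^ (1 + ε)) :=
              Finset.sum_le_sum hple
          _ = S / ((2 : ℝ) ^ j * ((j : ℝ) + 1) ^ (1 + ε)) := by rw [hS, Finset.sum_div]
          _ ≤ (2 : ℝ) ^ j / ((2 : ℝ) ^ j * ((j : ℝ) + 1) ^ (1 + ε)) := by gcongr
          _ = 1 / ((j : ℝ) + 1) ^ (1 + ε) := by field_simp
    _ ≤ ∑' j : ℕ, 1 / ((j : ℝ) + 1) ^ (1 + ε) :=
        hgeo.sum_le_tsum _ (fun j _ => by positivity)

lemma cnt_eq_zero (γ δ : ℝ) (q : ℕ) (hq : 0 < q) (x : ℝ)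
    (hx : ∀ a : ℤ, ¬ |(q : ℝ) * x - a - γ| < δ) : cnt γ δ q x = 0 := by
  apply Finset.sum_eq_zero
  intro a _
  apply Set.indicator_of_notMem
  intro hmem
  have hqR : (0 : ℝ) < q := by exact_mod_cast hq
  simp only [ivl, Set.mem_Ioo, div_lt_iff₀ hqR, lt_div_iff₀ hqR] at hmem
  exact hx a (abs_lt.2 ⟨by linarith [hmem.1, mul_comm x (q : ℝ)],
    by linarith [hmem.2, mul_comm x (q : ℝ)]⟩)

/-- Main theorem, general criterion. -/
theorem ae_infinite_of_families (γ : ℝ) (δ : ℕ → ℝ) (hδ : ∀ q, 0 ≤ δ q) (hδ1 : ∀ q, δ q ≤ 1/2)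
    (K : ℝ) (hK : ∀ N : ℕ, ∃ F : Finset ℕ, (∀ q ∈ F, N ≤ q) ∧ 0 < ∑ q ∈ F, δ q ∧
      ∑ q ∈ F, δ q * q.divisors.card ≤ K * (∑ q ∈ F, δ q) ^ 2) :
    ∀ᵐ x : ℝ, {q : ℕ | 1 ≤ q ∧ ∃ a : ℤ, |(q : ℝ) * x - a - γ| < δ q}.Infinite := by
  rw [ae_iff]
  set B : ℕ → Set ℝ := fun n => Set.Ico (0 : ℝ) 1 ∩
    {x | ∀ q, n ≤ q → 1 ≤ q → ∀ a : ℤ, ¬ |(q : ℝ) * x - a - γ| < δ q} with hB
  have hmeas : ∀ n, MeasurableSet (B n) := by
    intro n
    refine measurableSet_Ico.inter (IsClosed.measurableSet ?_)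
    simp only [not_lt, Set.ofPred_forall]
    refine isClosed_iInter (fun q => isClosed_iInter (fun _ => isClosed_iInter (fun _ =>
      isClosed_iInter (fun a => isClosed_le continuous_const (by fun_prop)))))
  have hnull : ∀ n, volume (B n) = 0 := fun n =>
    null_of_avoid γ δ hδ hδ1 K hK (B n) (hmeas n) Set.inter_subset_left (max n 1)
      (fun q hq x hx => cnt_eq_zero γ (δ q) q (by omega) x
        (hx.2 q (by omega) (by omega)))
  refine measure_mono_null (t := ⋃ n : ℕ, ⋃ k : ℤ, (fun x : ℝ => x + (k : ℝ)) ⁻¹' (B n)) ?_ ?_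
  · intro x hx
    simp only [Set.mem_ofPred_eq, Set.not_infinite] at hx
    obtain ⟨n, hn⟩ := hx.bddAbove
    simp only [Set.mem_iUnion, Set.mem_preimage]
    refine ⟨n + 1, -⌊x⌋, ⟨by push_cast; linarith [Int.floor_le x],
      by push_cast; linarith [Int.lt_floor_add_one x]⟩, ?_⟩
    intro q hqn hq1 a ha
    have : q ≤ n := hn ⟨hq1, a + (q : ℤ) * ⌊x⌋, by
      push_cast at ha ⊢
      convert ha using 2
      ring⟩
    omega
  · simp [measure_iUnion_null_iff, hnull]

theorem ae_infinite_of_divergence (γ : ℝ) (ψ : ℕ → ℝ) (hψ : ∀ q, 0 ≤ ψ q) (ε : ℝ) (hε : 0 < ε)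
    (h : ¬ Summable (fun q : ℕ => ψ q / ((q.divisors.card : ℝ) * ((Nat.log 2 q.divisors.card : ℝ) + 1) ^ (1 + ε)))) :
    ∀ᵐ x : ℝ, {q : ℕ | 1 ≤ q ∧ ∃ a : ℤ, |(q : ℝ) * x - a - γ| < ψ q}.Infinite := by
  by_cases hbig : {q : ℕ | 1 ≤ q ∧ 1/2 < ψ q}.Infinite
  · refine Filter.Eventually.of_forall (fun x => hbig.mono ?_)
    rintro q ⟨hq, hq2⟩
    refine ⟨hq, round ((q : ℝ) * x - γ), lt_of_le_of_lt ?_ hq2⟩
    have := abs_sub_round ((q : ℝ) * x - γ)
    rw [show (q : ℝ) * x - (round ((q : ℝ) * x - γ) : ℤ) - γ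
        = (q : ℝ) * x - γ - (round ((q : ℝ) * x - γ) : ℤ) by ring]
    exact this
  · rw [Set.not_infinite] at hbig
    set δ : ℕ → ℝ := fun q => min (ψ q) (1/2) with hδdef
    have hδ : ∀ q, 0 ≤ δ q := fun q => le_min (hψ q) (by norm_num)
    have hns : ¬ Summable (fun q : ℕ => δ q / ((q.divisors.card : ℝ) * ((Nat.log 2 q.divisors.card : ℝ) + 1) ^ (1 + ε))) := by
      intro hs
      apply h
      obtain ⟨n, hn⟩ := hbig.bddAbove
      refine (summable_nat_add_iff (n + 1)).1 (((summable_nat_add_iff (n + 1)).2 hs).congr ?_)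
      intro i
      have : ψ (i + (n + 1)) ≤ 1/2 := by
        by_contra hc
        have := hn (⟨by omega, not_le.1 hc⟩ : i + (n + 1) ∈ {q : ℕ | 1 ≤ q ∧ 1/2 < ψ q})
        omega
      simp only [hδdef, min_eq_left this]
    filter_upwards [ae_infinite_of_families γ δ hδ (fun q => min_le_right _ _) 2
      (exists_family δ hδ ε hε hns)] with x hx
    refine hx.mono ?_
    rintro q ⟨hq, a, ha⟩
    exact ⟨hq, a, lt_of_lt_of_le ha (min_le_left _ _)⟩

end Vale.Agent.P028
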