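import Mathlib

/-!
# Overlaps of two families of shifted rational intervals

`ivl γ δ q a` is the interval of half-width `δ / q` around `(a + γ) / q`, and `idx γ q` is a range
of numerators covering the unit interval.
-/

open MeasureTheory Set Finset

namespace Vale.Agent.P028

/-- The interval of half-width `δ / q` around `(a + γ) / q`. -/
noncomputable def ivl (γ δ : ℝ) (q : ℕ) (a : ℤ) : Set ℝ :=
  Set.Ioo ((a + γ - δ) / q) ((a + γ + δ) / q)

/-- Numerators `a` whose intervals can meet the unit interval. -/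
noncomputable def idx (γ : ℝ) (q : ℕ) : Finset ℤ :=
  Finset.Icc (⌊-γ⌋ - 1) (⌊(q : ℝ) - γ⌋ + 2)

/-- The counting function of the intervals attached to `q`. -/
noncomputable def cnt (γ δ : ℝ) (q : ℕ) (x : ℝ) : ℝ :=
  ∑ a ∈ idx γ q, (ivl γ δ q a).indicator (fun _ => (1 : ℝ)) x

lemma volume_ivl (γ δ : ℝ) (q : ℕ) (a : ℤ) (hδ : 0 ≤ δ) :
    volume.real (ivl γ δ q a) = 2 * δ / q := by
  unfold ivl
  rw [Real.volume_real_Ioo_of_le]
  · ring
  · gcongr
    linarith

/-- Number of integers in an open interval of length `2 w`. -/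
lemma card_int_window (S : Finset ℤ) (m w : ℝ) (hw : 0 ≤ w)
    (h : ∀ k ∈ S, |(k : ℝ) - m| < w) : (S.card : ℝ) ≤ 2 * w + 1 := by
  rcases S.eq_empty_or_nonempty with rfl | hne
  · simp; linarith
  have hsub : S ⊆ Finset.Icc (S.min' hne) (S.max' hne) := fun k hk =>
    Finset.mem_Icc.2 ⟨S.min'_le k hk, S.le_max' k hk⟩
  have hc := Finset.card_le_card hsub
  rw [Int.card_Icc] at hc
  have hcR : (S.card : ℝ) ≤ (((S.max' hne + 1 - S.min' hne).toNat : ℤ) : ℝ) := by
    exact_mod_cast hc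
  have h0 : S.min' hne ≤ S.max' hne := S.min'_le _ (S.max'_mem hne)
  rw [Int.toNat_of_nonneg (by omega)] at hcR
  have h1 := abs_lt.1 (h _ (S.min'_mem hne))
  have h2 := abs_lt.1 (h _ (S.max'_mem hne))
  push_cast at hcR
  linarith [h1.1, h2.2]

/-- Pairs in `S` with a fixed value of `a q' - b q` are few. -/
lemma fiber_card (γ : ℝ) (q q' : ℕ) (hq : 0 < q) (_hq' : 0 < q') (k : ℤ) (S : Finset (ℤ × ℤ))
    (hS : ∀ p ∈ S, p.1 ∈ idx γ q ∧ p.1 * (q' : ℤ) - p.2 * (q : ℤ) = k) :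
    (S.card : ℝ) ≤ 6 * (Nat.gcd q q' : ℝ) := by
  classical
  set d := Nat.gcd q q' with hd
  have hd0 : 0 < d := Nat.gcd_pos_of_pos_left _ hq
  obtain ⟨n, n', hco, hn, hn'⟩ := Nat.exists_coprime q q'
  rw [← hd] at hn hn'
  have hn0 : 0 < n := Nat.pos_of_mul_pos_right (hn ▸ hq)
  set lo : ℤ := ⌊-γ⌋ - 1 with hlo
  set hi : ℤ := ⌊(q : ℝ) - γ⌋ + 2 with hhi
  -- the first coordinate determines the pair
  have inj : Set.InjOn (fun p : ℤ × ℤ => (p.1 - lo) / (n : ℤ)) (S : Set (ℤ × ℤ)) := by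
    intro p hp r hr hpr
    have e1 := (hS p hp).2
    have e2 := (hS r hr).2
    have hqZ : (q : ℤ) = n * d := by exact_mod_cast hn
    have hq'Z : (q' : ℤ) = n' * d := by exact_mod_cast hn'
    have e3 : ((p.1 - r.1) * (n' : ℤ)) * (d : ℤ) = ((p.2 - r.2) * (n : ℤ)) * (d : ℤ) := by
      rw [hqZ, hq'Z] at e1 e2
      linear_combination e1 - e2
    have e4 : (p.1 - r.1) * (n' : ℤ) = (p.2 - r.2) * (n : ℤ) :=
      mul_right_cancel₀ (by exact_mod_cast hd0.ne') e3
    have hdvd : (n : ℤ) ∣ p.1 - r.1 := by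
      have h1 : (n : ℤ) ∣ (p.1 - r.1) * (n' : ℤ) := ⟨p.2 - r.2, by rw [e4]; ring⟩
      exact IsCoprime.dvd_of_dvd_mul_right (Int.isCoprime_iff_nat_coprime.2 (by simpa using hco)) h1
    have hmod : (p.1 - lo) % (n : ℤ) = (r.1 - lo) % (n : ℤ) := by
      apply Int.emod_eq_emod_iff_emod_sub_eq_zero.2
      rw [show p.1 - lo - (r.1 - lo) = p.1 - r.1 by ring]
      exact Int.emod_eq_zero_of_dvd hdvd
    have h1 : p.1 = r.1 := by
      have a1 := Int.mul_ediv_add_emod (p.1 - lo) (n : ℤ)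
      have a2 := Int.mul_ediv_add_emod (r.1 - lo) (n : ℤ)
      simp only at hpr
      rw [hpr, hmod, a2] at a1
      omega
    have h2 : p.2 = r.2 := by
      have : (0 : ℤ) = (p.2 - r.2) * (n : ℤ) := by rw [← e4, h1]; ring
      rcases mul_eq_zero.1 this.symm with h | h
      · omega
      · exfalso; omega
    exact Prod.ext h1 h2
  have hlen : hi - lo ≤ q + 4 := by
    have a1 := Int.floor_le ((q : ℝ) - γ)
    have a2 := Int.lt_floor_add_one (-γ)
    have : ((hi - lo : ℤ) : ℝ) < (q : ℝ) + 5 := by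
      rw [hlo, hhi]; push_cast; linarith
    have : hi - lo < (q : ℤ) + 5 := by exact_mod_cast this
    omega
  have himg : S.image (fun p : ℤ × ℤ => (p.1 - lo) / (n : ℤ)) ⊆
      Finset.Icc 0 (((q : ℤ) + 4) / (n : ℤ)) := by
    intro t ht
    obtain ⟨p, hp, rfl⟩ := Finset.mem_image.1 ht
    have hp1 : p.1 ∈ Finset.Icc lo hi := (hS p hp).1
    rw [Finset.mem_Icc] at hp1
    exact Finset.mem_Icc.2 ⟨Int.ediv_nonneg (by omega) (by omega),
      Int.ediv_le_ediv (by exact_mod_cast hn0) (by omega)⟩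
  have hc := Finset.card_le_card himg
  rw [Finset.card_image_of_injOn inj, Int.card_Icc] at hc
  have hb : ((q : ℤ) + 4) / (n : ℤ) ≤ 5 * (d : ℤ) := by
    apply Int.ediv_le_of_le_mul (by exact_mod_cast hn0)
    have hqZ : (q : ℤ) = n * d := by exact_mod_cast hn
    have h1 : (1 : ℤ) ≤ (n : ℤ) * d := by rw [← hqZ]; exact_mod_cast hq
    rw [hqZ]; nlinarith
  have hnn : 0 ≤ ((q : ℤ) + 4) / (n : ℤ) := Int.ediv_nonneg (by omega) (by omega)
  have : (S.card : ℤ) ≤ 6 * (d : ℤ) := by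
    have : (S.card : ℤ) ≤ ((q : ℤ) + 4) / (n : ℤ) + 1 := by omega
    omega
  exact_mod_cast this

/-- The basic bound for the overlap of the families attached to `q` and `q'`. -/
lemma overlap_le (γ δ δ' : ℝ) (q q' : ℕ) (hq : 0 < q) (hq' : 0 < q') (hδ : 0 ≤ δ) (hδ' : 0 ≤ δ') :
    ∑ a ∈ idx γ q, ∑ b ∈ idx γ q', volume.real (ivl γ δ q a ∩ ivl γ δ' q' b) ≤
      48 * δ * δ' + 12 * (Nat.gcd q q' : ℝ) * min (δ / q) (δ' / q') := by
  classical
  set d := Nat.gcd q q' with hd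
  have hd0 : 0 < d := Nat.gcd_pos_of_pos_left _ hq
  have hdR : (0 : ℝ) < d := by exact_mod_cast hd0
  have hqR : (0 : ℝ) < q := by exact_mod_cast hq
  have hq'R : (0 : ℝ) < q' := by exact_mod_cast hq'
  set w : ℝ := δ * q' + δ' * q with hwdef
  have hw : 0 ≤ w := by positivity
  set μ : ℝ := min (δ / q) (δ' / q') with hμ
  have hμ0 : 0 ≤ μ := le_min (by positivity) (by positivity)
  set T := ((idx γ q) ×ˢ (idx γ q')).filter
    (fun p => (ivl γ δ q p.1 ∩ ivl γ δ' q' p.2).Nonempty) with hT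
  have hsum : ∑ a ∈ idx γ q, ∑ b ∈ idx γ q', volume.real (ivl γ δ q a ∩ ivl γ δ' q' b)
      ≤ (T.card : ℝ) * (2 * μ) := by
    rw [← Finset.sum_product']
    calc ∑ p ∈ idx γ q ×ˢ idx γ q', volume.real (ivl γ δ q p.1 ∩ ivl γ δ' q' p.2)
        = ∑ p ∈ T, volume.real (ivl γ δ q p.1 ∩ ivl γ δ' q' p.2) := by
          symm
          apply Finset.sum_filter_of_ne
          intro p hp hne
          by_contra hc
          rw [Set.not_nonempty_iff_eq_empty.1 hc] at hne
          simp at hne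
      _ ≤ (T.card : ℝ) * (2 * μ) := by
          rw [← nsmul_eq_mul]
          apply Finset.sum_le_card_nsmul
          intro p hp
          rw [hμ, mul_min_of_nonneg _ _ (by norm_num : (0:ℝ) ≤ 2)]
          apply le_min
          · calc volume.real (ivl γ δ q p.1 ∩ ivl γ δ' q' p.2) ≤ volume.real (ivl γ δ q p.1) :=
                measureReal_mono Set.inter_subset_left (by simp [ivl])
              _ = 2 * (δ / q) := by rw [volume_ivl _ _ _ _ hδ]; ring
          · calc volume.real (ivl γ δ q p.1 ∩ ivl γ δ' q' p.2) ≤ volume.real (ivl γ δ' q' p.2) :=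
                measureReal_mono Set.inter_subset_right (by simp [ivl])
              _ = 2 * (δ' / q') := by rw [volume_ivl _ _ _ _ hδ']; ring
  set K : ℤ × ℤ → ℤ := fun p => (p.1 * (q' : ℤ) - p.2 * (q : ℤ)) / (d : ℤ) with hK
  have hdvd : ∀ p : ℤ × ℤ, (d : ℤ) ∣ p.1 * (q' : ℤ) - p.2 * (q : ℤ) := by
    intro p
    apply dvd_sub
    · exact Dvd.dvd.mul_left (Int.natCast_dvd_natCast.2 (Nat.gcd_dvd_right q q')) _
    · exact Dvd.dvd.mul_left (Int.natCast_dvd_natCast.2 (Nat.gcd_dvd_left q q')) _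
  have hwin : ∀ k ∈ T.image K, |(k : ℝ) - (γ * ((q : ℝ) - q') / d)| < w / d := by
    intro k hk
    obtain ⟨p, hp, rfl⟩ := Finset.mem_image.1 hk
    obtain ⟨x, hx1, hx2⟩ := (Finset.mem_filter.1 hp).2
    simp only [ivl, Set.mem_Ioo] at hx1 hx2
    rw [div_lt_iff₀ hqR, lt_div_iff₀ hqR] at hx1
    rw [div_lt_iff₀ hq'R, lt_div_iff₀ hq'R] at hx2
    have hval : ((K p : ℤ) : ℝ) * d = (p.1 : ℝ) * q' - (p.2 : ℝ) * q := by
      have := Int.ediv_mul_cancel (hdvd p)
      have h2 : ((K p * (d : ℤ) : ℤ) : ℝ) = ((p.1 * (q' : ℤ) - p.2 * (q : ℤ) : ℤ) : ℝ) := by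
        exact_mod_cast this
      simpa using h2
    rw [show ((K p : ℤ) : ℝ) - γ * ((q : ℝ) - q') / d
        = (((K p : ℤ) : ℝ) * d - γ * ((q : ℝ) - q')) / d by field_simp, abs_div,
      abs_of_pos hdR, hval]
    apply div_lt_div_of_pos_right _ hdR
    rw [abs_lt, hwdef]
    constructor <;> nlinarith [hx1.1, hx1.2, hx2.1, hx2.2]
  have hcard : (T.card : ℝ) ≤ 6 * (d : ℝ) * (2 * (w / d) + 1) := by
    calc (T.card : ℝ) = ∑ k ∈ T.image K, ((T.filter (fun p => K p = k)).card : ℝ) := by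
          exact_mod_cast Finset.card_eq_sum_card_image K T
      _ ≤ ∑ k ∈ T.image K, 6 * (d : ℝ) := by
          apply Finset.sum_le_sum
          intro k _
          apply fiber_card γ q q' hq hq' (k * (d : ℤ))
          intro p hp
          obtain ⟨hpT, hpk⟩ := Finset.mem_filter.1 hp
          refine ⟨(Finset.mem_product.1 (Finset.mem_filter.1 hpT).1).1, ?_⟩
          rw [← hpk, hK]
          exact (Int.ediv_mul_cancel (hdvd p)).symm
      _ = 6 * (d : ℝ) * ((T.image K).card : ℝ) := by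
          rw [Finset.sum_const, nsmul_eq_mul]; ring
      _ ≤ 6 * (d : ℝ) * (2 * (w / d) + 1) := by
          apply mul_le_mul_of_nonneg_left _ (by positivity)
          exact card_int_window _ _ _ (by positivity) hwin
  have hμw : μ * w ≤ 2 * (δ * δ') := by
    have h1 : μ * (δ * q') ≤ δ * δ' := by
      calc μ * (δ * q') ≤ (δ' / q') * (δ * q') :=
            mul_le_mul_of_nonneg_right (min_le_right _ _) (by positivity)
        _ = δ * δ' := by field_simp
    have h2 : μ * (δ' * q) ≤ δ * δ' := by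
      calc μ * (δ' * q) ≤ (δ / q) * (δ' * q) :=
            mul_le_mul_of_nonneg_right (min_le_left _ _) (by positivity)
        _ = δ * δ' := by field_simp
    rw [hwdef]; linarith [mul_add μ (δ * q') (δ' * q)]
  calc _ ≤ (T.card : ℝ) * (2 * μ) := hsum
    _ ≤ 6 * (d : ℝ) * (2 * (w / d) + 1) * (2 * μ) :=
        mul_le_mul_of_nonneg_right hcard (by positivity)
    _ = 24 * (μ * w) + 12 * (d : ℝ) * μ := by field_simp; ring
    _ ≤ 48 * δ * δ' + 12 * (d : ℝ) * μ := by linarith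

/-- `∑_{m ≤ q} gcd(q, m) ≤ q τ(q)`. -/
lemma sum_gcd_le (q : ℕ) (hq : 0 < q) :
    ∑ m ∈ Finset.Ioc 0 q, Nat.gcd q m ≤ q * q.divisors.card := by
  calc ∑ m ∈ Finset.Ioc 0 q, Nat.gcd q m
      ≤ ∑ m ∈ Finset.Ioc 0 q, ∑ e ∈ q.divisors, (if e ∣ m then e else 0) := by
        apply Finset.sum_le_sum
        intro m _
        have hmem : Nat.gcd q m ∈ q.divisors :=
          Nat.mem_divisors.2 ⟨Nat.gcd_dvd_left q m, hq.ne'⟩
        calc Nat.gcd q m = (if Nat.gcd q m ∣ m then Nat.gcd q m else 0) := by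
              rw [if_pos (Nat.gcd_dvd_right q m)]
          _ ≤ _ := Finset.single_le_sum (f := fun e => if e ∣ m then e else 0)
              (fun _ _ => Nat.zero_le _) hmem
    _ = ∑ e ∈ q.divisors, ((Finset.Ioc 0 q).filter (fun m => e ∣ m)).card * e := by
        rw [Finset.sum_comm]
        apply Finset.sum_congr rfl
        intro e _
        rw [← Finset.sum_filter, Finset.sum_const, smul_eq_mul]
    _ = ∑ e ∈ q.divisors, q := by
        apply Finset.sum_congr rfl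
        intro e he
        rw [Nat.Ioc_filter_dvd_card_eq_div]
        exact Nat.div_mul_cancel (Nat.dvd_of_mem_divisors he)
    _ = q * q.divisors.card := by rw [Finset.sum_const, smul_eq_mul, mul_comm]

lemma sum_gcd_weight_le (F : Finset ℕ) (hF : ∀ q ∈ F, 0 < q) (δ : ℕ → ℝ) (hδ : ∀ q, 0 ≤ δ q)
    (q : ℕ) (hq : q ∈ F) :
    ∑ m ∈ F, (if m ≤ q then (Nat.gcd q m : ℝ) * (δ q / q) else 0)
      ≤ δ q * q.divisors.card := by
  have hq0 := hF q hq
  have hqR : (0 : ℝ) < q := by exact_mod_cast hq0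
  rw [← Finset.sum_filter, ← Finset.sum_mul]
  have hsub : F.filter (fun m => m ≤ q) ⊆ Finset.Ioc 0 q := by
    intro m hm
    rw [Finset.mem_filter] at hm
    exact Finset.mem_Ioc.2 ⟨hF m hm.1, hm.2⟩
  have h1 : ∑ m ∈ F.filter (fun m => m ≤ q), (Nat.gcd q m : ℝ) ≤ (q : ℝ) * q.divisors.card := by
    calc ∑ m ∈ F.filter (fun m => m ≤ q), (Nat.gcd q m : ℝ)
        ≤ ∑ m ∈ Finset.Ioc 0 q, (Nat.gcd q m : ℝ) :=
          Finset.sum_le_sum_of_subset_of_nonneg hsub (fun _ _ _ => by positivity)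
      _ ≤ (q : ℝ) * q.divisors.card := by exact_mod_cast sum_gcd_le q hq0
  calc _ ≤ (q : ℝ) * q.divisors.card * (δ q / q) :=
        mul_le_mul_of_nonneg_right h1 (div_nonneg (hδ q) hqR.le)
    _ = δ q * q.divisors.card := by field_simp

lemma integrable_ivl (γ δ : ℝ) (q : ℕ) (a : ℤ) :
    Integrable ((ivl γ δ q a).indicator (fun _ => (1 : ℝ))) volume := by
  exact (integrableOn_const (by simp [ivl]) : IntegrableOn (fun _ => (1 : ℝ)) (ivl γ δ q a)
    volume).integrable_indicator measurableSet_Ioo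

lemma integrable_inter (γ δ δ' : ℝ) (q q' : ℕ) (a b : ℤ) :
    Integrable ((ivl γ δ q a ∩ ivl γ δ' q' b).indicator (fun _ => (1 : ℝ))) volume :=
  (integrableOn_const (ne_top_of_le_ne_top (by simp [ivl]) (measure_mono Set.inter_subset_left)) :
    IntegrableOn (fun _ => (1 : ℝ)) (ivl γ δ q a ∩ ivl γ δ' q' b) volume).integrable_indicator
    (measurableSet_Ioo.inter measurableSet_Ioo)

lemma integrable_cnt (γ δ : ℝ) (q : ℕ) : Integrable (cnt γ δ q) volume :=
  integrable_finsetSum _ (fun a _ => integrable_ivl γ δ q a)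

lemma cnt_nonneg (γ δ : ℝ) (q : ℕ) (x : ℝ) : 0 ≤ cnt γ δ q x :=
  Finset.sum_nonneg (fun _ _ => Set.indicator_nonneg (fun _ _ => zero_le_one) _)

lemma cnt_mul_cnt (γ δ δ' : ℝ) (q q' : ℕ) (x : ℝ) :
    cnt γ δ q x * cnt γ δ' q' x = ∑ a ∈ idx γ q, ∑ b ∈ idx γ q',
      (ivl γ δ q a ∩ ivl γ δ' q' b).indicator (fun _ => (1 : ℝ)) x := by
  classical
  simp only [cnt, Finset.sum_mul_sum]
  refine Finset.sum_congr rfl (fun a _ => Finset.sum_congr rfl (fun b _ => ?_))
  simp only [Set.indicator_apply, Set.mem_inter_iff]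
  split_ifs with h1 h2 h3 <;> simp_all

lemma integrable_cnt_mul_cnt (γ δ δ' : ℝ) (q q' : ℕ) :
    Integrable (fun x => cnt γ δ q x * cnt γ δ' q' x) volume := by
  simp only [cnt_mul_cnt]
  exact integrable_finsetSum _ (fun a _ => integrable_finsetSum _
    (fun b _ => integrable_inter γ δ δ' q q' a b))

lemma integral_cnt_mul_cnt (γ δ δ' : ℝ) (q q' : ℕ) :
    ∫ x, cnt γ δ q x * cnt γ δ' q' x =
      ∑ a ∈ idx γ q, ∑ b ∈ idx γ q', volume.real (ivl γ δ q a ∩ ivl γ δ' q' b) := by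
  have hint := integrable_inter γ δ δ' q q'
  simp only [cnt_mul_cnt]
  rw [integral_finsetSum _ (fun a _ => integrable_finsetSum _ (fun b _ => hint a b))]
  refine Finset.sum_congr rfl (fun a _ => ?_)
  rw [integral_finsetSum _ (fun b _ => hint a b)]
  refine Finset.sum_congr rfl (fun b _ => ?_)
  simp [integral_indicator (measurableSet_Ioo.inter measurableSet_Ioo), ivl]

/-- Second moment bound for a finite family. -/
lemma second_moment_le (γ : ℝ) (δ : ℕ → ℝ) (hδ : ∀ q, 0 ≤ δ q) (F : Finset ℕ)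
    (hF : ∀ q ∈ F, 0 < q) :
    ∫ x, (∑ q ∈ F, cnt γ (δ q) q x) ^ 2 ≤
      48 * (∑ q ∈ F, δ q) ^ 2 + 24 * ∑ q ∈ F, δ q * q.divisors.card := by
  set A : ℕ → ℕ → ℝ := fun q m => if m ≤ q then (Nat.gcd q m : ℝ) * (δ q / q) else 0 with hA
  have hA0 : ∀ q m, 0 ≤ A q m := by
    intro q m
    simp only [hA]
    split_ifs
    · exact mul_nonneg (Nat.cast_nonneg _) (div_nonneg (hδ q) (Nat.cast_nonneg _))
    · exact le_rfl
  have hpair : ∀ q ∈ F, ∀ m ∈ F, ∫ x, cnt γ (δ q) q x * cnt γ (δ m) m x ≤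
      48 * δ q * δ m + 12 * (A q m + A m q) := by
    intro q hq m hm
    rw [integral_cnt_mul_cnt]
    refine (overlap_le γ _ _ q m (hF q hq) (hF m hm) (hδ q) (hδ m)).trans ?_
    rw [mul_assoc (12 : ℝ)]
    gcongr
    rcases le_total m q with h | h
    · calc (Nat.gcd q m : ℝ) * min (δ q / q) (δ m / m) ≤ (Nat.gcd q m : ℝ) * (δ q / q) :=
            mul_le_mul_of_nonneg_left (min_le_left _ _) (Nat.cast_nonneg _)
        _ = A q m := by simp [hA, h]
        _ ≤ A q m + A m q := le_add_of_nonneg_right (hA0 m q)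
    · calc (Nat.gcd q m : ℝ) * min (δ q / q) (δ m / m) ≤ (Nat.gcd q m : ℝ) * (δ m / m) :=
            mul_le_mul_of_nonneg_left (min_le_right _ _) (Nat.cast_nonneg _)
        _ = A m q := by simp [hA, h, Nat.gcd_comm q m]
        _ ≤ A q m + A m q := le_add_of_nonneg_left (hA0 q m)
  have e1 : (fun x => (∑ q ∈ F, cnt γ (δ q) q x) ^ 2) =
      fun x => ∑ q ∈ F, ∑ m ∈ F, cnt γ (δ q) q x * cnt γ (δ m) m x := by
    funext x; rw [sq, Finset.sum_mul_sum]
  rw [e1, integral_finsetSum _ (fun q _ => integrable_finsetSum _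
    (fun m _ => integrable_cnt_mul_cnt _ _ _ _ _))]
  have e2 : ∀ q ∈ F, ∫ x, ∑ m ∈ F, cnt γ (δ q) q x * cnt γ (δ m) m x
      = ∑ m ∈ F, ∫ x, cnt γ (δ q) q x * cnt γ (δ m) m x :=
    fun q _ => integral_finsetSum _ (fun m _ => integrable_cnt_mul_cnt _ _ _ _ _)
  rw [Finset.sum_congr rfl e2]
  refine (Finset.sum_le_sum (fun q hq => Finset.sum_le_sum (fun m hm => hpair q hq m hm))).trans ?_
  have hs : ∑ q ∈ F, ∑ m ∈ F, (48 * δ q * δ m + 12 * (A q m + A m q)) =
      48 * (∑ q ∈ F, δ q) ^ 2 + 24 * ∑ q ∈ F, ∑ m ∈ F, A q m := by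
    have hc : ∑ q ∈ F, ∑ m ∈ F, A m q = ∑ q ∈ F, ∑ m ∈ F, A q m := Finset.sum_comm
    simp only [Finset.sum_add_distrib, ← Finset.mul_sum, ← Finset.sum_mul, hc, sq]
    ring
  rw [hs]
  have : ∑ q ∈ F, ∑ m ∈ F, A q m ≤ ∑ q ∈ F, δ q * q.divisors.card :=
    Finset.sum_le_sum (fun q hq => sum_gcd_weight_le F hF δ hδ q hq)
  linarith

end Vale.Agent.P028
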